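import Mathlib
import Vale.Agent.P245.H729.Low

set_option linter.all false

open MeasureTheory Real Set Filter Topology
open scoped ENNReal ContDiff

/-! Core of the improved Lichnerowicz bound for the log-Sobolev constant. -/

namespace Vale.Agent.P245.H729

open Vale.Agent.P245 Vale.Agent.P245.LS Vale.Agent.P245.E1

variable {n : ℕ}

/-- `StPath` with the curvature term kept -/
def StPathBI (n : ℕ) : Prop :=
  ∀ (ρ0 : (Fin n → ℝ) → ℝ) (R : ℝ), LCd ρ0 → IsProbabilityMeasure (mu ρ0) →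
    CSupp (mu ρ0) R →
    ∀ (N : (Fin n → ℝ) → ℝ) (δ κ σ α x X D : ℝ), 0 < δ → 2000 * δ ≤ κ →
      DBS (mu ρ0) (2 * δ) δ κ D → σ ∈ Icc (2 * δ) (3 * δ) → Pos N → EY (mu ρ0) σ N = 1 →
      0 ≤ α → 10 ^ 4 * α ≤ κ * FI (mu ρ0) σ N →
      D - α ≤ HE (mu ρ0) σ N - κ * FI (mu ρ0) σ N →
      2 * δ * FI (mu ρ0) σ N ≤ x → 0 ≤ X → X ≤ FI (mu ρ0) σ N →
      Pred (mu ρ0) σ N (sN N) x X →
      ∃ (ρ : ℝ) (M : (Fin n → ℝ) → ℝ), ρ ∈ Icc (2 * δ) (3 * δ) ∧ Pos M ∧ EY (mu ρ0) ρ M = 1 ∧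
        D - (10 * α + 8 * δ * X) ≤ HE (mu ρ0) ρ M - κ * FI (mu ρ0) ρ M ∧
        9 / 10 * FI (mu ρ0) σ N ≤ FI (mu ρ0) ρ M ∧ FI (mu ρ0) ρ M ≤ FI (mu ρ0) σ N ∧
        κ * GA (mu ρ0) ρ M + 2 * κ * BI (mu ρ0) ρ M (sN M) (sN M)
          ≤ 1 / 2 * FI (mu ρ0) ρ M + (10 * α + 8 * δ * X) / δ ∧
        Pred (mu ρ0) ρ M (sN M) x (2 * X + 2 * (10 * α + 8 * δ * X) / κ)

theorem thPathBI (n : ℕ) (hPA : StPathA n) (hR : StR n) (hCo : StCo n) (hU : StU n)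
    (hP : StP n) : StPathBI n := by
  intro ρ0 R hρ hprob hcs N δ κ σ α x X D hδ hδκ hDBS hσ hN hN1 hα hαJ hnear hx hX0 hXJ hPred
  have := hprob
  obtain ⟨⟨hVpos, hV1, -⟩, -, hup⟩ := hPA ρ0 R hρ hprob hcs N (PH (σ - 2 * δ) N) δ κ σ α x X D
    hδ hδκ hDBS hσ hN hN1 hα hαJ hnear hx hX0 hXJ hPred rfl
  set V : (Fin n → ℝ) → ℝ := PH (σ - 2 * δ) N with hV
  set M : ℝ := 10 * α + 8 * δ * X with hM
  have hs0 : 0 < 2 * δ := by linarith only [hδ]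
  have hsr : (2 : ℝ) * δ ≤ 3 * δ := by linarith only [hδ]
  have hκ : 0 < κ := by linarith only [hδ, hδκ]
  have hss : 2 * δ ∈ Icc (2 * δ) (3 * δ) := ⟨le_rfl, hsr⟩
  have hrr : 3 * δ ∈ Icc (2 * δ) (3 * δ) := ⟨hsr, le_rfl⟩
  obtain ⟨cH, cJ, dH, dJ, -⟩ := hU (mu ρ0) R hcs V (2 * δ) (3 * δ) hVpos hs0 hsr
  obtain ⟨-, -, hRb⟩ := hR (mu ρ0) R hcs
  have hsb : ∀ v ∈ Icc (2 * δ) (3 * δ), ∀ i, SB (us (mu ρ0) (2 * δ) v V i) ∧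
      SB (mm (mu ρ0) (2 * δ) v V i) ∧ SB (sN (UL (mu ρ0) (2 * δ) v V) i) := by
    intro v hv i
    obtain ⟨hUpos, h1, -⟩ := (hRb (2 * δ) v hs0 hv.1).2 V hVpos
    have hv0 : 0 < v := hs0.trans_le hv.1
    exact ⟨(h1 i).2.1, (h1 i).2.2.1, (((hRb v v hv0 le_rfl).2 _ hUpos).2.1 i).1⟩
  obtain ⟨v, hv, hvd⟩ := exists_deriv_ge (M := M) (δ := δ) (a := 2 * δ) (b := 3 * δ)
    (α := fun ρ => D - LS.HE (mu ρ0) ρ (UL (mu ρ0) (2 * δ) ρ V)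
      + κ * LS.FI (mu ρ0) ρ (UL (mu ρ0) (2 * δ) ρ V)) hδ (by ring)
    ((continuousOn_const.sub cH).add (continuousOn_const.mul cJ))
    (fun v hv => ((dH v hv).const_sub D).add ((dJ v hv).const_mul κ))
    (by
      have h1 := (hup (3 * δ) hrr).2.2.1
      show 0 ≤ D - LS.HE (mu ρ0) (3 * δ) (UL (mu ρ0) (2 * δ) (3 * δ) V)
        + κ * LS.FI (mu ρ0) (3 * δ) (UL (mu ρ0) (2 * δ) (3 * δ) V)
      linarith only [h1])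
    (by
      have h1 := (hup (2 * δ) hss).2.2.2.1
      show D - LS.HE (mu ρ0) (2 * δ) (UL (mu ρ0) (2 * δ) (2 * δ) V)
        + κ * LS.FI (mu ρ0) (2 * δ) (UL (mu ρ0) (2 * δ) (2 * δ) V) ≤ M
      linarith only [h1])
  have hvI : v ∈ Icc (2 * δ) (3 * δ) := ⟨hv.1.le, hv.2.le⟩
  obtain ⟨hUpos, hUE, hHD, hHM, hFle, hFge, hmm, hPu⟩ := hup v hvI
  have hv0 : 0 < v := hs0.trans hv.1
  have hB : 0 ≤ BI (mu ρ0) v (UL (mu ρ0) (2 * δ) v V) (sN (UL (mu ρ0) (2 * δ) v V))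
      (sN (UL (mu ρ0) (2 * δ) v V)) :=
    (hP ρ0 R hρ hprob hcs v _ _ _ hv0 hUpos (fun i => (hsb v hvI i).2.2)
      (fun i => (hsb v hvI i).2.2)).1
  have hJ0 : 0 ≤ LS.FI (mu ρ0) σ N := hX0.trans hXJ
  refine ⟨v, UL (mu ρ0) (2 * δ) v V, hvI, hUpos, hUE, hHM, by linarith only [hX0, hXJ, hFge], hFle, ?_, ?_⟩
  · linarith only [hvd]
  · intro l hl hI
    obtain ⟨-, hc⟩ := (hCo (mu ρ0) v _ hUpos).2.2 hUE l hl
    have h1 := (hc (us (mu ρ0) (2 * δ) v V) fun i => (hsb v hvI i).1).2.2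
      (mm (mu ρ0) (2 * δ) v V) (fun i => (hsb v hvI i).2.1) 1 (-1)
    have h3 := (hc (mm (mu ρ0) (2 * δ) v V) fun i => (hsb v hvI i).2.1).2.1
    have h4 := hPu l hl hI
    have e1 : (fun i y => 1 * us (mu ρ0) (2 * δ) v V i y + -1 * mm (mu ρ0) (2 * δ) v V i y)
        = sN (UL (mu ρ0) (2 * δ) v V) := by
      funext i y
      unfold mm
      ring
    rw [e1] at h1
    have e2 : 2 * M / κ = 2 * (M / κ) := by ring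
    rw [e2]
    linarith only [hmm, h1, h3, h4]

end Vale.Agent.P245.H729
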